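import Vale.Agent.P179.Bdl.B1

namespace Vale.Agent.Results.P179.PrincipalOneWeight

open Vale.Agent.P179

universe u v

/-- Let B be the principal p-block of a finite group G. Then B has exactly one simple module iff
there is exactly one class of p-weights belonging to B, iff G is p-nilpotent. -/
theorem result (p : ℕ) [Fact p.Prime] (k : Type v) [Field k] [IsAlgClosed k] [CharP k p]
    (G : Type u) [Group G] [Finite G] :
    Nonempty (integralClosure ℤ ℂ →+* k) ∧
    (∃ B : MonoidAlgebra k G, IsBlock k G B ∧ IsPrincipal B) ∧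
    ∀ (rho : integralClosure ℤ ℂ →+* k) (B : MonoidAlgebra k G), IsBlock k G B → IsPrincipal B →
      (numSimple B = 1 ↔ numWeights p rho B = 1) ∧ (numWeights p rho B = 1 ↔ PNilpotent p G) := by
  refine ⟨exists_rho p k, ?_, fun rho B hB hpr => ?_⟩
  · obtain ⟨B, hB, h1⟩ := exists_principal (k := k) (G := G)
    exact ⟨B, hB, (aug_eq_sum B).symm.trans h1⟩
  · exact ⟨(numSimple_iff hB hpr).trans (numWeights_iff rho hB hpr).symm,
      numWeights_iff rho hB hpr⟩

end Vale.Agent.Results.P179.PrincipalOneWeight
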